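import Vale.Agent.P042.WA.FD.A9
set_option autoImplicit false

/-! FD, part 10: upper bound for the number of points of the curve `C_s`. -/

namespace Vale.Agent.P042.WA.FD

open Polynomial

section

variable {p : ℕ} [Fact p.Prime]

lemma level_card (h : (ZMod p)[X]) (k : ℕ) (hk : h.natDegree = k) (hk1 : 1 ≤ k) (t : ZMod p) :
    ((Finset.univ : Finset (ZMod p)).filter (fun x => h.eval x = t)).card ≤ k := by
  classical
  have h1 : (h - C t).natDegree = k := by rw [natDegree_sub_C, hk]
  have h0 : h - C t ≠ 0 := by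
    intro h2
    rw [h2, natDegree_zero] at h1
    omega
  have h2 : (Finset.univ : Finset (ZMod p)).filter (fun x => h.eval x = t) ⊆
      (h - C t).roots.toFinset := by
    intro x hx
    rw [Finset.mem_filter] at hx
    rw [Multiset.mem_toFinset, mem_roots h0, IsRoot.def, eval_sub, eval_C, hx.2, sub_self]
  refine (Finset.card_le_card h2).trans ((Multiset.toFinset_card_le _).trans ?_)
  rw [← h1]
  exact card_roots' _

lemma deriv_ne (h : (ZMod p)[X]) (k : ℕ) (hk : h.natDegree = k) (hk1 : 1 ≤ k) (hkp : k < p) :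
    h.derivative ≠ 0 := by
  intro h0
  have h1 := congrArg (fun f => f.coeff (k - 1)) h0
  simp only [coeff_derivative, coeff_zero] at h1
  rw [Nat.sub_add_cancel hk1] at h1
  have h2 : h.coeff k ≠ 0 := by
    rw [← hk]
    exact leadingCoeff_ne_zero.2 (by rintro rfl; simp at hk; omega)
  rcases mul_eq_zero.1 h1 with h3 | h3
  · exact h2 h3
  · have h4 : ((k : ℕ) : ZMod p) = 0 := by
      have : ((k - 1 : ℕ) : ZMod p) + 1 = ((k : ℕ) : ZMod p) := by
        rw [← Nat.cast_succ, Nat.succ_eq_add_one, Nat.sub_add_cancel hk1]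
      rw [← this]; exact h3
    rw [ZMod.natCast_eq_zero_iff] at h4
    exact absurd (Nat.le_of_dvd (by omega) h4) (by omega)

lemma crit_card (h : (ZMod p)[X]) (k : ℕ) (hk : h.natDegree = k) (hk1 : 1 ≤ k) (hkp : k < p) :
    ((Finset.univ : Finset (ZMod p)).filter (fun x => h.derivative.eval x = 0)).card ≤ k := by
  classical
  have h0 := deriv_ne h k hk hk1 hkp
  have h2 : (Finset.univ : Finset (ZMod p)).filter (fun x => h.derivative.eval x = 0) ⊆
      h.derivative.roots.toFinset := by
    intro x hx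
    rw [Finset.mem_filter] at hx
    rw [Multiset.mem_toFinset, mem_roots h0, IsRoot.def, hx.2]
  refine (Finset.card_le_card h2).trans ((Multiset.toFinset_card_le _).trans ?_)
  refine (card_roots' _).trans ((natDegree_derivative_le _).trans ?_)
  omega

/-- all quadruples with prescribed values -/
lemma quad_card (h : (ZMod p)[X]) (k : ℕ) (hk : h.natDegree = k) (hk1 : 1 ≤ k)
    (t1 t2 t3 t4 : ZMod p) :
    ((Finset.univ : Finset ((ZMod p × ZMod p) × (ZMod p × ZMod p))).filter (fun P =>
      (h.eval P.1.1 = t1 ∧ h.eval P.1.2 = t2) ∧ (h.eval P.2.1 = t3 ∧ h.eval P.2.2 = t4))).card ≤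
      k * k * (k * k) := by
  classical
  have h1 : (Finset.univ : Finset ((ZMod p × ZMod p) × (ZMod p × ZMod p))).filter (fun P =>
      (h.eval P.1.1 = t1 ∧ h.eval P.1.2 = t2) ∧ (h.eval P.2.1 = t3 ∧ h.eval P.2.2 = t4)) =
      ((Finset.univ.filter (fun x => h.eval x = t1)) ×ˢ (Finset.univ.filter (fun x => h.eval x = t2))) ×ˢ
      ((Finset.univ.filter (fun x => h.eval x = t3)) ×ˢ (Finset.univ.filter (fun x => h.eval x = t4))) := by
    ext P
    simp only [Finset.mem_filter, Finset.mem_univ, true_and, Finset.mem_product]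
  rw [h1, Finset.card_product, Finset.card_product, Finset.card_product]
  have e := level_card h k hk hk1
  exact Nat.mul_le_mul (Nat.mul_le_mul (e t1) (e t2)) (Nat.mul_le_mul (e t3) (e t4))

end

open Classical in
theorem curveUpper (hST : ST) (hW3 : W3) : CurveUpper := by
  intro k hk
  have hST1 : ∀ d : ℕ, ∃ K : ℝ, ∃ P0 : ℕ, 0 ≤ K ∧ (1 ≤ d →
      STi (d * (k * d)) (d + k + d) (((d - 1) + (k - 1)) + (d - 1)) 1 K P0) := by
    intro d
    by_cases hd : 1 ≤ d
    · obtain ⟨K, hK, P0, hP⟩ := hST (d * (k * d)) (d + k + d) (((d - 1) + (k - 1)) + (d - 1)) 1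
        (Nat.mul_pos hd (Nat.mul_pos (by omega) hd))
      exact ⟨K, P0, hK, fun _ => hP⟩
    · exact ⟨0, 0, le_rfl, fun h => absurd h hd⟩
  choose K P0 hK0 hSTd using hST1
  obtain ⟨P3, hP3⟩ := hW3 k hk
  set KK : ℝ := ∑ d ∈ Finset.range (k + 1), K d + (3 * k * (k * k * (k * k)) : ℕ) with hKK
  refine ⟨KK, ∑ d ∈ Finset.range (k + 1), P0 d + P3 + k + 1, ?_⟩
  intro p _ hp h F d s hdeg hF0 hirr hbad
  have hpp : p.Prime := Fact.out
  have hkp : k < p := by omega
  have hdk : d ≤ k := by
    rw [← hdeg]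
    exact goodFac_le (by omega) hF0
  have hd1 : 1 ≤ d := hF0.pos
  have hP0 : P0 d ≤ p := by
    have : P0 d ≤ ∑ d ∈ Finset.range (k + 1), P0 d :=
      Finset.single_le_sum (f := P0) (fun i _ => Nat.zero_le _) (Finset.mem_range.2 (by omega))
    omega
  have hKd : K d + (3 * k * (k * k * (k * k)) : ℕ) ≤ KK := by
    rw [hKK]
    have : K d ≤ ∑ d ∈ Finset.range (k + 1), K d :=
      Finset.single_le_sum (f := K) (fun i _ => hK0 i) (Finset.mem_range.2 (by omega))
    linarith
  set 𝕜 := AlgebraicClosure (ZMod p) with hkk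
  have hcharp : CharP 𝕜 p := charP_of_injective_algebraMap (algebraMap (ZMod p) 𝕜).injective p
  set ι := algebraMap (ZMod p) 𝕜 with hι
  set Fk := mapXY ι F with hFk
  have hF := goodFac_map ι hF0
  rw [← hFk] at hF
  have hdegk : (h.map ι).natDegree = k := by rw [natDegree_map, hdeg]
  have hdom : IsDomain (R3 (h.map ι) Fk (ι s)) :=
    hP3 p hpp (by omega) 𝕜 (h.map ι) Fk d (ι s) hdegk hF hirr hbad
  have hevd : ∀ x z : ZMod p, evXY (derivative Fk) (ι x) (ι z) = ι (evXY (derivative F) x z) := by
    intro x z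
    rw [← evXY_map]
    congr 1
    rw [hFk]
    unfold mapXY
    rw [derivative_map]
  have hev : ∀ x z : ZMod p, evXY Fk (ι x) (ι z) = ι (evXY F x z) := fun x z => by
    rw [← evXY_map]
  have hhe : ∀ x : ZMod p, (h.map ι).eval (ι x) = ι (h.eval x) := fun x => by
    rw [eval_map_apply]
  have hhd : ∀ x : ZMod p, (h.map ι).derivative.eval (ι x) = ι (h.derivative.eval x) := fun x => by
    rw [derivative_map, eval_map_apply]
  set S : Finset ((ZMod p × ZMod p) × (ZMod p × ZMod p)) := Finset.univ.filter (fun P =>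
    evXY F P.1.1 P.1.2 = 0 ∧ evXY F P.2.1 P.2.2 = 0 ∧ h.eval P.2.1 = h.eval P.1.1 + s) with hS
  have hcardS : Nat.card {P : (ZMod p × ZMod p) × (ZMod p × ZMod p) //
        evXY F P.1.1 P.1.2 = 0 ∧ evXY F P.2.1 P.2.2 = 0 ∧ h.eval P.2.1 = h.eval P.1.1 + s} =
      S.card := by
    rw [Nat.card_eq_fintype_card, Fintype.card_subtype]
  rw [hcardS]
  let good : (ZMod p × ZMod p) × (ZMod p × ZMod p) → Prop := fun P =>
    evXY (derivative F) P.2.1 P.2.2 ≠ 0 ∧ h.derivative.eval P.2.1 ≠ 0 ∧
      evXY (derivative F) P.1.1 P.1.2 ≠ 0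
  have hsplit : S.card = (S.filter good).card + (S.filter (fun P => ¬ good P)).card :=
    (Finset.card_filter_add_card_filter_not (s := S) good).symm
  -- good points
  have hgood : ((S.filter good).card : ℝ) ≤ p + K d * Real.sqrt p := by
    let em : (ZMod p × ZMod p) × (ZMod p × ZMod p) → (𝕜 × 𝕜) × (𝕜 × 𝕜) := fun P =>
      ((ι P.1.1, ι P.1.2), (ι P.2.1, ι P.2.2))
    have hem : Function.Injective em := by
      intro P P' hPP
      simp only [em, Prod.mk.injEq] at hPP
      obtain ⟨⟨e1, e2⟩, e3, e4⟩ := hPP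
      exact Prod.ext (Prod.ext (ι.injective e1) (ι.injective e2))
        (Prod.ext (ι.injective e3) (ι.injective e4))
    have h1 := good_points (d := d) (k := k) (by omega) (hSTd d hd1) p hP0 𝕜 (h.map ι) Fk (ι s)
      hdegk hF hdom ((S.filter good).image em) (by
        intro P hP
        rw [Finset.mem_image] at hP
        obtain ⟨P', hP', rfl⟩ := hP
        rw [Finset.mem_filter, hS, Finset.mem_filter] at hP'
        obtain ⟨⟨_, g1, g2, g3⟩, g4, g5, g6⟩ := hP'
        have hfx : ∀ x : ZMod p, (ι x) ^ p = ι x := fun x => by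
          rw [← map_pow, ZMod.pow_card]
        have hnz : ∀ x : ZMod p, x ≠ 0 → ι x ≠ 0 := fun x hx =>
          (map_ne_zero_iff _ ι.injective).2 hx
        refine ⟨hfx _, hfx _, hfx _, hfx _, ?_, ?_, ?_, ?_, ?_, ?_⟩
        · simp only [em]; rw [hev, g1, map_zero]
        · simp only [em]; rw [hhe, hhe, g3, map_add]
        · simp only [em]; rw [hev, g2, map_zero]
        · simp only [em]; rw [hevd]; exact hnz _ g4
        · simp only [em]; rw [hhd]; exact hnz _ g5
        · simp only [em]; rw [hevd]; exact hnz _ g6)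
    rwa [Finset.card_image_of_injective _ hem] at h1
  -- bad points
  have hbadp : (S.filter (fun P => ¬ good P)).card ≤ 3 * k * (k * k * (k * k)) := by
    set Cr : Finset (ZMod p) := Finset.univ.filter (fun x => h.derivative.eval x = 0) with hCr
    have hCrc : Cr.card ≤ k := crit_card h k hdeg (by omega) hkp
    set Tb : Finset (ZMod p) := (Cr.image (fun c => - h.eval c - s) ∪ Cr.image (fun c => h.eval c - s)) ∪
      Cr.image (fun c => - h.eval c) with hTb
    have hTbc : Tb.card ≤ 3 * k := by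
      rw [hTb]
      refine (Finset.card_union_le _ _).trans ?_
      have h1 := Finset.card_union_le (Cr.image (fun c => - h.eval c - s))
        (Cr.image (fun c => h.eval c - s))
      have h2 : (Cr.image (fun c => - h.eval c - s)).card ≤ Cr.card := Finset.card_image_le
      have h3 : (Cr.image (fun c => h.eval c - s)).card ≤ Cr.card := Finset.card_image_le
      have h4 : (Cr.image (fun c => - h.eval c)).card ≤ Cr.card := Finset.card_image_le
      omega
    have hsub : S.filter (fun P => ¬ good P) ⊆ Tb.biUnion (fun t =>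
        (Finset.univ : Finset ((ZMod p × ZMod p) × (ZMod p × ZMod p))).filter (fun P =>
      (h.eval P.1.1 = t ∧ h.eval P.1.2 = -t) ∧ (h.eval P.2.1 = t + s ∧ h.eval P.2.2 = -(t + s)))) := by
      intro P hP
      rw [Finset.mem_filter, hS, Finset.mem_filter] at hP
      obtain ⟨⟨_, g1, g2, g3⟩, g4⟩ := hP
      have r1 := curve_rel hF0 g1
      have r2 := curve_rel hF0 g2
      rw [Finset.mem_biUnion]
      refine ⟨h.eval P.1.1, ?_, ?_⟩
      · rw [hTb, Finset.mem_union, Finset.mem_union, Finset.mem_image, Finset.mem_image,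
          Finset.mem_image]
        by_cases b1 : evXY (derivative F) P.2.1 P.2.2 = 0
        · left; left
          refine ⟨P.2.2, ?_, ?_⟩
          · rw [hCr, Finset.mem_filter]
            exact ⟨Finset.mem_univ _, crit hF0 g2 b1⟩
          · rw [g3] at r2
            linear_combination (-1 : ZMod p) * r2
        · by_cases b2 : h.derivative.eval P.2.1 = 0
          · left; right
            refine ⟨P.2.1, ?_, ?_⟩
            · rw [hCr, Finset.mem_filter]
              exact ⟨Finset.mem_univ _, b2⟩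
            · rw [g3]; ring
          · right
            have b3 : evXY (derivative F) P.1.1 P.1.2 = 0 := by
              by_contra b3
              exact g4 ⟨b1, b2, b3⟩
            refine ⟨P.1.2, ?_, ?_⟩
            · rw [hCr, Finset.mem_filter]
              exact ⟨Finset.mem_univ _, crit hF0 g1 b3⟩
            · linear_combination (-1 : ZMod p) * r1
      · rw [Finset.mem_filter]
        refine ⟨Finset.mem_univ _, ⟨rfl, ?_⟩, g3, ?_⟩
        · linear_combination r1
        · rw [g3] at r2
          linear_combination r2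
    refine (Finset.card_le_card hsub).trans (Finset.card_biUnion_le.trans ?_)
    calc ∑ t ∈ Tb, ((Finset.univ : Finset ((ZMod p × ZMod p) × (ZMod p × ZMod p))).filter (fun P =>
      (h.eval P.1.1 = t ∧ h.eval P.1.2 = -t) ∧ (h.eval P.2.1 = t + s ∧ h.eval P.2.2 = -(t + s)))).card
        ≤ ∑ _t ∈ Tb, k * k * (k * k) :=
          Finset.sum_le_sum fun t _ => quad_card h k hdeg (by omega) _ _ _ _
      _ = Tb.card * (k * k * (k * k)) := by rw [Finset.sum_const, smul_eq_mul]
      _ ≤ 3 * k * (k * k * (k * k)) := Nat.mul_le_mul_right _ hTbc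
  have hsqrtp : 1 ≤ Real.sqrt p := by
    rw [Real.one_le_sqrt]
    exact_mod_cast hpp.one_lt.le
  have h1 : (S.card : ℝ) = ((S.filter good).card : ℝ) + ((S.filter (fun P => ¬ good P)).card : ℝ) := by
    exact_mod_cast hsplit
  have h2 : ((S.filter (fun P => ¬ good P)).card : ℝ) ≤ ((3 * k * (k * k * (k * k)) : ℕ) : ℝ) := by
    exact_mod_cast hbadp
  have h3 : ((3 * k * (k * k * (k * k)) : ℕ) : ℝ) ≤
      ((3 * k * (k * k * (k * k)) : ℕ) : ℝ) * Real.sqrt p :=
    le_mul_of_one_le_right (Nat.cast_nonneg _) hsqrtp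
  have h4 : (K d + (3 * k * (k * k * (k * k)) : ℕ)) * Real.sqrt p ≤ KK * Real.sqrt p :=
    mul_le_mul_of_nonneg_right hKd (Real.sqrt_nonneg _)
  linarith

end Vale.Agent.P042.WA.FD
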