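import Vale.Agent.P042.WA.FD.A6
set_option autoImplicit false

/-! FD, part 7: lower bound for the number of rational points of the plane curve. -/

namespace Vale.Agent.P042.WA.FD

open Polynomial

section

variable {𝕜 : Type} [Field 𝕜] {h : 𝕜[X]} {F : 𝕜[X][X]} {d : ℕ}

/-- fibre polynomial -/
noncomputable def fib (F : 𝕜[X][X]) (x : 𝕜) : 𝕜[X] := F.map (evalRingHom x)

lemma fib_eval (F : 𝕜[X][X]) (x z : 𝕜) : (fib F x).eval z = evXY F x z := by
  rw [evXY_eq, fib, eval_map]

lemma fib_deriv (F : 𝕜[X][X]) (x z : 𝕜) :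
    (derivative (fib F x)).eval z = evXY (derivative F) x z := by
  rw [evXY_eq, fib, derivative_map, eval_map]

lemma fib_ne (hF : GoodFac h F d) (x : 𝕜) : fib F x ≠ 0 := by
  have hm : (fib F x).Monic := hF.monic.map _
  exact hm.ne_zero

open Classical in
lemma fib_card [IsAlgClosed 𝕜] (hF : GoodFac h F d) (x : 𝕜)
    (hx : ∀ c : 𝕜, h.derivative.eval c = 0 → h.eval x + h.eval c ≠ 0) :
    (fib F x).roots.toFinset.card = d := by
  have hm : (fib F x).Monic := hF.monic.map _
  have hdeg : (fib F x).natDegree = d := by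
    unfold fib
    rw [hF.monic.natDegree_map, hF.deg]
  have hsplit : (fib F x).Splits := IsAlgClosed.splits _
  have hcard : (fib F x).roots.card = d := by
    rw [← hdeg]
    exact (splits_iff_card_roots.1 hsplit)
  have hnd : (fib F x).roots.Nodup := by
    rw [Multiset.nodup_iff_count_le_one]
    intro c
    by_contra hcon
    push Not at hcon
    rw [count_roots] at hcon
    have h1 : (fib F x).IsRoot c ∧ (derivative (fib F x)).IsRoot c := by
      have h2 := (one_lt_rootMultiplicity_iff_isRoot hm.ne_zero).1 hcon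
      exact h2
    have h3 : evXY F x c = 0 := by rw [← fib_eval]; exact h1.1
    have h4 : evXY (derivative F) x c = 0 := by rw [← fib_deriv]; exact h1.2
    exact hx c (crit hF h3 h4) (curve_rel hF h3)
  rw [Multiset.toFinset_card_of_nodup hnd, hcard]

end

section count

variable {p : ℕ} [Fact p.Prime]

/-- residues over which the fibre may be ramified -/
lemma ramified_card (𝕜 : Type) [Field 𝕜] [Algebra (ZMod p) 𝕜] (h : (ZMod p)[X]) (k : ℕ)
    (hk : h.natDegree = k) (hk1 : 1 ≤ k) (hkp : k < p) :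
    ∃ T : Finset (ZMod p), T.card ≤ k * k ∧ ∀ x : ZMod p, x ∉ T →
      ∀ c : 𝕜, (h.map (algebraMap (ZMod p) 𝕜)).derivative.eval c = 0 →
        (h.map (algebraMap (ZMod p) 𝕜)).eval (algebraMap (ZMod p) 𝕜 x) +
          (h.map (algebraMap (ZMod p) 𝕜)).eval c ≠ 0 := by
  classical
  set hk' := h.map (algebraMap (ZMod p) 𝕜) with hh
  have hpp : p.Prime := Fact.out
  have hdeg : hk'.natDegree = k := by rw [hh, natDegree_map, hk]
  have hd0 : h.derivative ≠ 0 := by
    intro h0
    have h1 := congrArg (fun f => f.coeff (k - 1)) h0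
    simp only [coeff_derivative, coeff_zero] at h1
    rw [Nat.sub_add_cancel hk1] at h1
    have h2 : h.coeff k ≠ 0 := by
      rw [← hk]
      exact leadingCoeff_ne_zero.2 (by rintro rfl; simp at hk; omega)
    rcases mul_eq_zero.1 h1 with h3 | h3
    · exact h2 h3
    · have h4 : ((k : ℕ) : ZMod p) = 0 := by
        have : ((k - 1 : ℕ) : ZMod p) + 1 = ((k : ℕ) : ZMod p) := by
          rw [← Nat.cast_succ, Nat.succ_eq_add_one, Nat.sub_add_cancel hk1]
        rw [← this]; exact h3
      rw [ZMod.natCast_eq_zero_iff] at h4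
      exact absurd (Nat.le_of_dvd (by omega) h4) (by omega)
  have hd1 : hk'.derivative ≠ 0 := by
    rw [hh, derivative_map]
    exact (Polynomial.map_ne_zero_iff (algebraMap (ZMod p) 𝕜).injective).2 hd0
  -- critical points
  set Cr : Finset 𝕜 := hk'.derivative.roots.toFinset with hCr
  have hCrc : Cr.card ≤ k := by
    refine (Multiset.toFinset_card_le _).trans ((card_roots' _).trans ?_)
    refine (natDegree_derivative_le _).trans ?_
    omega
  have hg : ∀ c : 𝕜, hk' + C (hk'.eval c) ≠ 0 := by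
    intro c h0
    have h1 : (hk' + C (hk'.eval c)).natDegree = k := by rw [natDegree_add_C, hdeg]
    rw [h0, natDegree_zero] at h1
    omega
  refine ⟨Cr.biUnion (fun c => (Finset.univ : Finset (ZMod p)).filter
    (fun x => hk'.eval (algebraMap (ZMod p) 𝕜 x) + hk'.eval c = 0)), ?_, ?_⟩
  · refine (Finset.card_biUnion_le).trans ?_
    calc ∑ c ∈ Cr, ((Finset.univ : Finset (ZMod p)).filter
          (fun x => hk'.eval (algebraMap (ZMod p) 𝕜 x) + hk'.eval c = 0)).card
        ≤ ∑ _c ∈ Cr, k := by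
          refine Finset.sum_le_sum fun c _ => ?_
          have h1 : ((Finset.univ : Finset (ZMod p)).filter
              (fun x => hk'.eval (algebraMap (ZMod p) 𝕜 x) + hk'.eval c = 0)).card ≤
              (hk' + C (hk'.eval c)).roots.toFinset.card := by
            apply Finset.card_le_card_of_injOn (algebraMap (ZMod p) 𝕜)
            · intro x hx
              rw [Finset.mem_coe, Finset.mem_filter] at hx
              rw [Finset.mem_coe, Multiset.mem_toFinset, mem_roots (hg c), IsRoot.def, eval_add,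
                eval_C]
              exact hx.2
            · exact (algebraMap (ZMod p) 𝕜).injective.injOn
          refine h1.trans ((Multiset.toFinset_card_le _).trans ((card_roots' _).trans ?_))
          rw [natDegree_add_C, hdeg]
      _ = Cr.card * k := by rw [Finset.sum_const, smul_eq_mul]
      _ ≤ k * k := Nat.mul_le_mul_right _ hCrc
  · intro x hx c hc h0
    apply hx
    rw [Finset.mem_biUnion]
    refine ⟨c, ?_, ?_⟩
    · rw [hCr, Multiset.mem_toFinset, mem_roots hd1]
      exact hc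
    · rw [Finset.mem_filter]
      exact ⟨Finset.mem_univ _, h0⟩

end count

open Classical in
theorem curveLower (hST : ST) : CurveLower := by
  intro k hk
  -- constants
  have hST1 : ∀ d : ℕ, ∃ K : ℝ, ∃ P0 : ℕ, 0 ≤ K ∧ (1 ≤ d → STi d d (d - 1) (d - 1) K P0) := by
    intro d
    by_cases hd : 1 ≤ d
    · obtain ⟨K, hK, P0, hP⟩ := hST d d (d - 1) (d - 1) hd
      exact ⟨K, P0, hK, fun _ => hP⟩
    · exact ⟨0, 0, le_rfl, fun h => absurd h hd⟩
  choose K P0 hK0 hSTd using hST1
  set KK : ℝ := ∑ d ∈ Finset.range (k + 1), (K d + Real.sqrt (P0 d)) + k * (k * k) with hKK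
  refine ⟨KK, ?_⟩
  intro p _ hkp h F d hdeg hF0 hirr
  have hpp : p.Prime := Fact.out
  set 𝕜 := AlgebraicClosure (ZMod p) with hkk
  have hcharp : CharP 𝕜 p := charP_of_injective_algebraMap (algebraMap (ZMod p) 𝕜).injective p
  have hdk : d ≤ k := by
    rw [← hdeg]
    exact goodFac_le (by omega) hF0
  have hd1 : 1 ≤ d := hF0.pos
  have hterm : K d + Real.sqrt (P0 d) + k * (k * k) ≤ KK := by
    rw [hKK]
    have : K d + Real.sqrt (P0 d) ≤ ∑ d ∈ Finset.range (k + 1), (K d + Real.sqrt (P0 d)) :=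
      Finset.single_le_sum (f := fun d => K d + Real.sqrt (P0 d))
        (fun i _ => add_nonneg (hK0 i) (Real.sqrt_nonneg _)) (Finset.mem_range.2 (by omega))
    linarith
  have hsqrtp : 1 ≤ Real.sqrt p := by
    rw [Real.one_le_sqrt]
    exact_mod_cast hpp.one_lt.le
  have hss : Real.sqrt p * Real.sqrt p = p := Real.mul_self_sqrt (Nat.cast_nonneg p)
  by_cases hPp : P0 d ≤ p
  swap
  · -- small p
    push Not at hPp
    have h1 : Real.sqrt p ≤ Real.sqrt (P0 d) := Real.sqrt_le_sqrt (by exact_mod_cast hPp.le)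
    have h2 : (p : ℝ) ≤ KK * Real.sqrt p := by
      have h3 : Real.sqrt p ≤ KK := by
        have := hK0 d
        have h4 : (0 : ℝ) ≤ k * (k * k) := by positivity
        linarith
      calc (p : ℝ) = Real.sqrt p * Real.sqrt p := hss.symm
        _ ≤ KK * Real.sqrt p := mul_le_mul_of_nonneg_right h3 (Real.sqrt_nonneg _)
    have h5 : (0 : ℝ) ≤ (Nat.card {P : ZMod p × ZMod p // evXY F P.1 P.2 = 0} : ℝ) :=
      Nat.cast_nonneg _
    linarith
  obtain ⟨T, hTc, hT⟩ := ramified_card 𝕜 h k hdeg (by omega) hkp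
  set Fk := mapXY (algebraMap (ZMod p) 𝕜) F with hFk
  have hF := goodFac_map (algebraMap (ZMod p) 𝕜) hF0
  rw [← hFk] at hF
  set ι := algebraMap (ZMod p) 𝕜 with hι
  -- all points over unramified residues
  set A : Finset (𝕜 × 𝕜) := (Finset.univ \ T).biUnion (fun x : ZMod p =>
    (fib Fk (ι x)).roots.toFinset.image (fun z => (ι x, z))) with hA
  have hmemA : ∀ P : 𝕜 × 𝕜, P ∈ A ↔ ∃ x : ZMod p, x ∉ T ∧ P.1 = ι x ∧ evXY Fk P.1 P.2 = 0 := by
    intro P
    rw [hA, Finset.mem_biUnion]
    constructor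
    · rintro ⟨x, hx, hP⟩
      rw [Finset.mem_image] at hP
      obtain ⟨z, hz, rfl⟩ := hP
      have hx2 : x ∉ T := (Finset.mem_sdiff.1 hx).2
      refine ⟨x, hx2, rfl, ?_⟩
      rw [← fib_eval]
      exact (mem_roots ((hF.monic.map _).ne_zero)).1 (Multiset.mem_toFinset.1 hz)
    · rintro ⟨x, hx, h1, h2⟩
      refine ⟨x, Finset.mem_sdiff.2 ⟨Finset.mem_univ _, hx⟩, ?_⟩
      rw [Finset.mem_image]
      refine ⟨P.2, ?_, ?_⟩
      · rw [Multiset.mem_toFinset, mem_roots (fib_ne hF _), IsRoot.def]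
        rw [fib_eval, ← h1]; exact h2
      · rw [← h1]
  have hAcard : A.card = (p - T.card) * d := by
    rw [hA, Finset.card_biUnion]
    · have h1 : ∀ x ∈ Finset.univ \ T, ((fib Fk (ι x)).roots.toFinset.image
          (fun z => (ι x, z))).card = d := by
        intro x hx
        have hx2 : x ∉ T := (Finset.mem_sdiff.1 hx).2
        rw [Finset.card_image_of_injective _ (fun z z' h => (Prod.mk.inj h).2)]
        exact fib_card hF (ι x) (hT x hx2)
      rw [Finset.sum_congr rfl h1, Finset.sum_const, smul_eq_mul, Finset.card_sdiff_of_subset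
        (Finset.subset_univ _), Finset.card_univ, ZMod.card]
    · intro x _ y _ hxy
      rw [Function.onFun, Finset.disjoint_left]
      intro P hP hP'
      rw [Finset.mem_image] at hP hP'
      obtain ⟨z, _, rfl⟩ := hP
      obtain ⟨z', _, h2⟩ := hP'
      exact hxy (ι.injective (Prod.mk.inj h2).1.symm)
  set Bd : Finset (𝕜 × 𝕜) := A.filter (fun P => P.2 ^ p ≠ P.2) with hBd
  set Gd : Finset (𝕜 × 𝕜) := A.filter (fun P => P.2 ^ p = P.2) with hGd
  have hsplit : A.card = Gd.card + Bd.card := by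
    rw [hGd, hBd]
    exact (Finset.card_filter_add_card_filter_not (s := A) (fun P => P.2 ^ p = P.2)).symm
  have hBdle : (Bd.card : ℝ) ≤ ((d - 1 : ℕ) : ℝ) * p + K d * Real.sqrt p := by
    refine bad_points (hSTd d hd1) p hPp 𝕜 h F hF0 hirr Bd ?_
    intro P hP
    rw [hBd, Finset.mem_filter, hmemA] at hP
    obtain ⟨⟨x, hx, h1, h2⟩, h3⟩ := hP
    refine ⟨?_, h2, ?_, h3⟩
    · rw [h1, hι, ← map_pow, ZMod.pow_card]
    · intro h4
      have h5 := crit hF h2 h4
      have h6 := curve_rel hF h2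
      rw [h1] at h6
      exact hT x hx P.2 h5 h6
  have hGdle : Gd.card ≤ Nat.card {P : ZMod p × ZMod p // evXY F P.1 P.2 = 0} := by
    rw [Nat.card_eq_fintype_card, Fintype.card_subtype]
    have h1 : Gd ⊆ ((Finset.univ : Finset (ZMod p × ZMod p)).filter
        (fun P => evXY F P.1 P.2 = 0)).image (fun P => (ι P.1, ι P.2)) := by
      intro P hP
      rw [hGd, Finset.mem_filter, hmemA] at hP
      obtain ⟨⟨x, hx, h1, h2⟩, h3⟩ := hP
      obtain ⟨z, hz⟩ := (fixed_iff (p := p) P.2).1 h3
      rw [Finset.mem_image]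
      refine ⟨(x, z), ?_, ?_⟩
      · rw [Finset.mem_filter]
        refine ⟨Finset.mem_univ _, ?_⟩
        have h4 := evXY_map ι F x z
        rw [← hFk, ← h1, hι, hz, h2] at h4
        exact (map_eq_zero_iff _ (algebraMap (ZMod p) 𝕜).injective).1 h4.symm
      · exact Prod.ext h1.symm hz
    exact (Finset.card_le_card h1).trans Finset.card_image_le
  have hAr : ((p : ℝ) - k * k) * d ≤ (A.card : ℝ) := by
    have h1 : (p - k * k) * d ≤ A.card := by
      rw [hAcard]
      exact Nat.mul_le_mul_right _ (by omega)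
    rcases le_or_gt (k * k) p with h2 | h2
    · have h3 : (((p - k * k) * d : ℕ) : ℝ) ≤ A.card := by exact_mod_cast h1
      rw [Nat.cast_mul, Nat.cast_sub h2, Nat.cast_mul] at h3
      exact h3
    · have h3 : ((p : ℝ) - k * k) ≤ 0 := by
        have : (p : ℝ) < k * k := by exact_mod_cast h2
        linarith
      have h4 : ((p : ℝ) - k * k) * d ≤ 0 := mul_nonpos_of_nonpos_of_nonneg h3 (Nat.cast_nonneg _)
      have h5 : (0 : ℝ) ≤ A.card := Nat.cast_nonneg _
      linarith
  have hfin : ((p : ℝ) - k * k) * d ≤ (Nat.card {P : ZMod p × ZMod p // evXY F P.1 P.2 = 0} : ℝ) +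
      (((d - 1 : ℕ) : ℝ) * p + K d * Real.sqrt p) := by
    have h1 : (A.card : ℝ) = Gd.card + Bd.card := by exact_mod_cast hsplit
    have h2 : (Gd.card : ℝ) ≤ (Nat.card {P : ZMod p × ZMod p // evXY F P.1 P.2 = 0} : ℝ) := by
      exact_mod_cast hGdle
    linarith
  have hdc : ((d - 1 : ℕ) : ℝ) = (d : ℝ) - 1 := by
    rw [Nat.cast_sub hd1, Nat.cast_one]
  rw [hdc] at hfin
  have hdkr : (d : ℝ) ≤ k := by exact_mod_cast hdk
  have h8 : (k : ℝ) * k * d ≤ k * (k * k) * Real.sqrt p := by
    have h9 : (k : ℝ) * k * d ≤ k * (k * k) := by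
      have : (0 : ℝ) ≤ (k : ℝ) * k := by positivity
      nlinarith
    have h10 : (0 : ℝ) ≤ (k : ℝ) * (k * k) := by positivity
    nlinarith
  have h11 : KK * Real.sqrt p ≥ (K d + k * (k * k)) * Real.sqrt p := by
    apply mul_le_mul_of_nonneg_right _ (Real.sqrt_nonneg _)
    have := Real.sqrt_nonneg (P0 d : ℝ)
    linarith
  nlinarith

end Vale.Agent.P042.WA.FD
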