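import Vale.Agent.P042.WA.FD.A7
set_option autoImplicit false

/-! FD, part 8: the tower of rings of the curve `C_s`. -/

namespace Vale.Agent.P042.WA.FD

open Polynomial

section tower

variable {𝕜 : Type} [Field 𝕜] {h : 𝕜[X]} {F : 𝕜[X][X]} {d k : ℕ} (s : 𝕜)

/-- the monic version of `G2` -/
noncomputable def G2m (h : 𝕜[X]) (F : 𝕜[X][X]) (s : 𝕜) : (R1 F)[X] :=
  C (algebraMap 𝕜 (R1 F) (h.leadingCoeff)⁻¹) * G2 h F s

lemma G2_natDegree (hF : GoodFac h F d) (hk : h.natDegree = k) (hk1 : 1 ≤ k) :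
    (G2 h F s).natDegree = k := by
  have := nontriv hF
  unfold G2
  rw [natDegree_sub_C, natDegree_map_eq_of_injective (algebraMap 𝕜 (R1 F)).injective, hk]

lemma G2_leading (hF : GoodFac h F d) (hk : h.natDegree = k) (hk1 : 1 ≤ k) :
    (G2 h F s).leadingCoeff = algebraMap 𝕜 (R1 F) h.leadingCoeff := by
  rw [leadingCoeff, G2_natDegree s hF hk hk1]
  unfold G2
  rw [coeff_sub, coeff_map, coeff_C, if_neg (by omega), sub_zero, ← hk]
  rfl

lemma lead_ne (hk : h.natDegree = k) (hk1 : 1 ≤ k) : h.leadingCoeff ≠ 0 :=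
  leadingCoeff_ne_zero.2 (by rintro rfl; simp at hk; omega)

lemma G2_eq (hk : h.natDegree = k) (hk1 : 1 ≤ k) :
    G2 h F s = C (algebraMap 𝕜 (R1 F) h.leadingCoeff) * G2m h F s := by
  unfold G2m
  rw [← mul_assoc, ← C_mul, ← map_mul, mul_inv_cancel₀ (lead_ne hk hk1), map_one, C_1, one_mul]

lemma G2m_monic (hF : GoodFac h F d) (hk : h.natDegree = k) (hk1 : 1 ≤ k) :
    (G2m h F s).Monic := by
  have h1 : algebraMap 𝕜 (R1 F) (h.leadingCoeff)⁻¹ * (G2 h F s).leadingCoeff = 1 := by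
    rw [G2_leading s hF hk hk1, ← map_mul, inv_mul_cancel₀ (lead_ne hk hk1), map_one]
  exact monic_C_mul_of_mul_leadingCoeff_eq_one h1

lemma G2m_natDegree (hF : GoodFac h F d) (hk : h.natDegree = k) (hk1 : 1 ≤ k) :
    (G2m h F s).natDegree = k := by
  have := nontriv hF
  have h1 : IsUnit (algebraMap 𝕜 (R1 F) (h.leadingCoeff)⁻¹) :=
    (isUnit_iff_ne_zero.2 (inv_ne_zero (lead_ne hk hk1))).map _
  unfold G2m
  rw [natDegree_C_mul_of_mul_ne_zero, G2_natDegree s hF hk hk1]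
  rw [G2_leading s hF hk hk1, ← map_mul, inv_mul_cancel₀ (lead_ne hk hk1), map_one]
  exact one_ne_zero

lemma algebraMap_mem {R : Type} [CommRing R] [Algebra 𝕜 R] {V : ℕ → Submodule 𝕜 R} {n W : ℕ}
    (hV : Filt 𝕜 n W V) (c : 𝕜) (T : ℕ) : algebraMap 𝕜 R c ∈ V T := by
  rw [Algebra.algebraMap_eq_smul_one]
  exact Submodule.smul_mem _ _ (hV.mono (Nat.zero_le T) hV.one_mem)

lemma aeval_x1 (h : 𝕜[X]) (F : 𝕜[X][X]) : aeval (x1 F) h = AdjoinRoot.of F h := by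
  have h1 : (aeval (x1 F) : 𝕜[X] →ₐ[𝕜] R1 F) = AdjoinRoot.ofAlgHom 𝕜 F := by
    apply Polynomial.algHom_ext
    rw [aeval_X]
    rfl
  rw [h1]; rfl

lemma G2m_coeff (hF : GoodFac h F d) (hk : h.natDegree = k) (hk1 : 1 ≤ k) (i : ℕ) (hi : i < k) :
    (G2m h F s).coeff i ∈ V1 F d (k - i) := by
  have hV := filt_V1 hF
  unfold G2m
  rw [coeff_C_mul]
  have h1 : (G2 h F s).coeff i ∈ V1 F d (k - i) := by
    unfold G2
    rw [coeff_sub, coeff_map, coeff_C]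
    split_ifs with h0
    · subst h0
      apply Submodule.sub_mem _ (algebraMap_mem hV _ _)
      apply Submodule.add_mem _ _ (algebraMap_mem hV _ _)
      rw [aeval_x1]
      exact of_mem_V1 hF (mem_V0.2 (by omega))
    · rw [sub_zero]
      exact algebraMap_mem hV _ _
  have h2 := hV.mul_mem (algebraMap_mem hV (h.leadingCoeff)⁻¹ 0) h1
  rwa [zero_add] at h2

/-- filtration of `R2` -/
noncomputable def V2 (h : 𝕜[X]) (F : 𝕜[X][X]) (s : 𝕜) (d k : ℕ) : ℕ → Submodule 𝕜 (R2 h F s) :=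
  VV (V1 F d) (G2 h F s) k

lemma unit_lead (hk : h.natDegree = k) (hk1 : 1 ≤ k) :
    IsUnit (algebraMap 𝕜 (R1 F) h.leadingCoeff) :=
  (isUnit_iff_ne_zero.2 (lead_ne hk hk1)).map _

lemma filt_V2 (hF : GoodFac h F d) (hk : h.natDegree = k) (hk1 : 1 ≤ k) :
    Filt 𝕜 (k * d) (d + k) (V2 h F s d k) :=
  filt_adjoin hF.pos hk1 (filt_V1 hF) (unit_lead hk hk1) (G2_eq s hk hk1) (G2m_monic s hF hk hk1)
    (G2m_natDegree s hF hk hk1) (G2m_coeff s hF hk hk1)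

/-- the derivation of `R2` -/
noncomputable def D2 (h : 𝕜[X]) (F : 𝕜[X][X]) (s : 𝕜) : Derivation 𝕜 (R2 h F s) (R2 h F s) :=
  DX (D1 F) (G2 h F s)

lemma D2_mem (hF : GoodFac h F d) (hk : h.natDegree = k) (hk1 : 1 ≤ k) (A : ℕ) (a : R2 h F s)
    (ha : a ∈ V2 h F s d k A) : D2 h F s a ∈ V2 h F s d k (A + ((d - 1) + (k - 1))) := by
  have h1 := filt_V1 hF
  exact DX_mem (V := V1 F d) (G := G2 h F s) (d := k) h1.one_mem h1.mono hk1
    (fun {A B a b} ha hb => h1.mul_mem ha hb) (unit_lead hk hk1) (algebraMap_mem h1 _ _)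
    (G2_eq s hk hk1) (G2m_monic s hF hk hk1)
    (G2m_natDegree s hF hk hk1) (G2m_coeff s hF hk hk1) (D1 F) (d - 1) (D1_mem hF) A a ha

lemma nontriv2 (hF : GoodFac h F d) (hk : h.natDegree = k) (hk1 : 1 ≤ k) :
    Nontrivial (R2 h F s) := by
  have hV := filt_V2 s hF hk hk1
  by_contra hcon
  rw [not_nontrivial_iff_subsingleton] at hcon
  have h1 := hV.lower (d + k + 1)
  have h2 : Module.finrank 𝕜 (V2 h F s d k (d + k + 1)) = 0 := Module.finrank_zero_of_subsingleton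
  rw [h2] at h1
  have h3 : 1 ≤ k * d := Nat.mul_pos hk1 hF.pos
  nlinarith

lemma G3_monic (hF : GoodFac h F d) : (G3 h F s).Monic := hF.monic.map _

lemma G3_natDegree (hF : GoodFac h F d) (hk : h.natDegree = k) (hk1 : 1 ≤ k) :
    (G3 h F s).natDegree = d := by
  have := nontriv2 s hF hk hk1
  unfold G3
  rw [hF.monic.natDegree_map, hF.deg]

lemma one_mem_V2 (hF : GoodFac h F d) (hk : h.natDegree = k) (hk1 : 1 ≤ k) :
    (1 : R2 h F s) ∈ VV (V1 F d) (G2 h F s) k 0 := (filt_V2 s hF hk hk1).one_mem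

lemma root_pow_mem_V2 (hF : GoodFac h F d) (hk : h.natDegree = k) (hk1 : 1 ≤ k) (j : ℕ) :
    (AdjoinRoot.root (G2 h F s)) ^ j ∈ V2 h F s d k j := by
  have h1 := filt_V1 hF
  have h2 := vv_root_pow_mul (V := V1 F d) (G := G2 h F s) (d := k)
    (fun {A B a b} ha hb => h1.mul_mem ha hb) (unit_lead hk hk1)
    (G2_eq s hk hk1) (G2m_monic s hF hk hk1)
    (G2m_natDegree s hF hk hk1) (G2m_coeff s hF hk hk1) (one_mem_V2 s hF hk hk1) j
  rw [mul_one] at h2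
  exact vv_mono _ _ (by omega) h2

lemma G3_coeff (hF : GoodFac h F d) (hk : h.natDegree = k) (hk1 : 1 ≤ k) (i : ℕ) (hi : i < d) :
    (G3 h F s).coeff i ∈ V2 h F s d k (d - i) := by
  have hV := filt_V2 s hF hk hk1
  unfold G3
  rw [coeff_map, coe_eval₂RingHom, eval₂_eq_sum_range]
  apply Submodule.sum_mem
  intro j hj
  rw [Finset.mem_range] at hj
  have h1 := hF.tdeg i hi.le
  have h2 := hV.mul_mem (algebraMap_mem hV ((F.coeff i).coeff j) 0) (root_pow_mem_V2 s hF hk hk1 j)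
  exact hV.mono (by omega) h2

/-- filtration of `R3` -/
noncomputable def V3 (h : 𝕜[X]) (F : 𝕜[X][X]) (s : 𝕜) (d k : ℕ) : ℕ → Submodule 𝕜 (R3 h F s) :=
  VV (V2 h F s d k) (G3 h F s) d

lemma filt_V3 (hF : GoodFac h F d) (hk : h.natDegree = k) (hk1 : 1 ≤ k) :
    Filt 𝕜 (d * (k * d)) (d + k + d) (V3 h F s d k) :=
  filt_adjoin (Nat.mul_pos hk1 hF.pos) hF.pos (filt_V2 s hF hk hk1) isUnit_one
    (by rw [C_1, one_mul] : G3 h F s = C 1 * G3 h F s) (G3_monic s hF)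
    (G3_natDegree s hF hk hk1) (G3_coeff s hF hk hk1)

/-- the derivation of `R3` -/
noncomputable def D3 (h : 𝕜[X]) (F : 𝕜[X][X]) (s : 𝕜) : Derivation 𝕜 (R3 h F s) (R3 h F s) :=
  DX (D2 h F s) (G3 h F s)

lemma D3_mem (hF : GoodFac h F d) (hk : h.natDegree = k) (hk1 : 1 ≤ k) (A : ℕ) (a : R3 h F s)
    (ha : a ∈ V3 h F s d k A) :
    D3 h F s a ∈ V3 h F s d k (A + (((d - 1) + (k - 1)) + (d - 1))) := by
  have h1 := filt_V2 s hF hk hk1
  exact DX_mem (V := V2 h F s d k) (G := G3 h F s) (d := d) h1.one_mem h1.mono hF.pos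
    (fun {A B a b} ha hb => h1.mul_mem ha hb) isUnit_one h1.one_mem
    (by rw [C_1, one_mul] : G3 h F s = C 1 * G3 h F s) (G3_monic s hF)
    (G3_natDegree s hF hk hk1) (G3_coeff s hF hk hk1) (D2 h F s) ((d - 1) + (k - 1))
    (D2_mem s hF hk hk1) A a ha

/-- the monomials of `R3` -/
noncomputable def mono3 (h : 𝕜[X]) (F : 𝕜[X][X]) (s : 𝕜) (a i j l : ℕ) : R3 h F s :=
  AdjoinRoot.of (G3 h F s) (AdjoinRoot.of (G2 h F s)
    (AdjoinRoot.of F (X ^ a) * AdjoinRoot.root F ^ i) * AdjoinRoot.root (G2 h F s) ^ j) *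
    AdjoinRoot.root (G3 h F s) ^ l

lemma V3_span (hF : GoodFac h F d) (T : ℕ) : V3 h F s d k T ≤ Submodule.span 𝕜
    {b : R3 h F s | ∃ β : R3 h F s, (b, β) ∈ {bb : R3 h F s × R3 h F s | ∃ a i j l : ℕ,
      bb = (mono3 h F s a i j l, mono3 h F s a i j l)} ∧ b ∈ V3 h F s d k T ∧
        β ∈ V3 h F s d k T} := by
  have h1 := fun T => vv_span (V := V0 𝕜) (G := F) (d := d) _ (V0_span (𝕜 := 𝕜)) T
  have h2 := fun T => vv_span (V := V1 F d) (G := G2 h F s) (d := k) _ h1 T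
  have h3 := vv_span (V := V2 h F s d k) (G := G3 h F s) (d := d) _ h2 T
  refine h3.trans (Submodule.span_mono ?_)
  rintro f ⟨l, a3, b3, hl, hT3, ⟨j, a2, b2, hj, hT2, ⟨i, a1, b1, hi, hT1, ⟨a, ha, rfl⟩, rfl⟩, rfl⟩, rfl⟩
  have hm : AdjoinRoot.of (G3 h F s) (AdjoinRoot.of (G2 h F s)
    (AdjoinRoot.of F (X ^ a) * AdjoinRoot.root F ^ i) * AdjoinRoot.root (G2 h F s) ^ j) *
    AdjoinRoot.root (G3 h F s) ^ l ∈ V3 h F s d k T := by
    refine vv_gen hl hT3 ?_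
    refine vv_gen hj hT2 ?_
    exact vv_gen hi hT1 (X_pow_mem ha)
  exact ⟨_, ⟨a, i, j, l, rfl⟩, hm, hm⟩

end tower

end Vale.Agent.P042.WA.FD
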