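import Vale.Agent.P042.WA.FD.A8
set_option autoImplicit false

/-! FD, part 9: points of the curve `C_s`. -/

namespace Vale.Agent.P042.WA.FD

open Polynomial

section

variable {𝕜 : Type} [Field 𝕜] {h : 𝕜[X]} {F : 𝕜[X][X]} {d k : ℕ} {s : 𝕜}

lemma D2_x (h : 𝕜[X]) (F : 𝕜[X][X]) (s : 𝕜) :
    D2 h F s (AdjoinRoot.of (G2 h F s) (AdjoinRoot.of F X)) =
      AdjoinRoot.mk (G2 h F s) (derivative (G2 h F s)) *
        AdjoinRoot.of (G2 h F s) (AdjoinRoot.mk F (derivative F)) := by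
  unfold D2
  rw [DX_of, D1_x]

lemma D3_x (h : 𝕜[X]) (F : 𝕜[X][X]) (s : 𝕜) :
    D3 h F s (AdjoinRoot.of (G3 h F s) (AdjoinRoot.of (G2 h F s) (AdjoinRoot.of F X))) =
      AdjoinRoot.mk (G3 h F s) (derivative (G3 h F s)) *
        AdjoinRoot.of (G3 h F s) (AdjoinRoot.mk (G2 h F s) (derivative (G2 h F s)) *
        AdjoinRoot.of (G2 h F s) (AdjoinRoot.mk F (derivative F))) := by
  unfold D3
  rw [DX_of, D2_x]

lemma pt2_aux (x z x' : 𝕜) (h0 : evXY F x z = 0) (h1 : h.eval x' = h.eval x + s) (f : 𝕜[X]) :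
    (f.map (algebraMap 𝕜 (R1 F))).eval₂ (pt F x z h0 : R1 F →+* 𝕜) x' = f.eval x' := by
  rw [eval₂_map]
  have h2 : (pt F x z h0 : R1 F →+* 𝕜).comp (algebraMap 𝕜 (R1 F)) = RingHom.id 𝕜 := by
    ext c
    rw [RingHom.comp_apply, RingHom.coe_coe, AlgHom.commutes]
    rfl
  rw [h2]; rfl

lemma pt2_root (x z x' : 𝕜) (h0 : evXY F x z = 0) (h1 : h.eval x' = h.eval x + s) :
    (G2 h F s).eval₂ (pt F x z h0 : R1 F →+* 𝕜) x' = 0 := by
  unfold G2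
  rw [eval₂_sub, pt2_aux x z x' h0 h1, eval₂_C, RingHom.coe_coe, map_add, aeval_x1, pt_of,
    AlgHom.commutes]
  change h.eval x' - (h.eval x + s) = 0
  rw [h1]; ring

/-- point of `R2` -/
noncomputable def pt2 (h : 𝕜[X]) (F : 𝕜[X][X]) (s x z x' : 𝕜) (h0 : evXY F x z = 0)
    (h1 : h.eval x' = h.eval x + s) : R2 h F s →ₐ[𝕜] 𝕜 :=
  AdjoinRoot.liftAlgHom (G2 h F s) (pt F x z h0) x' (pt2_root x z x' h0 h1)

lemma pt2_of (x z x' : 𝕜) (h0 : evXY F x z = 0) (h1 : h.eval x' = h.eval x + s) (b : R1 F) :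
    pt2 h F s x z x' h0 h1 (AdjoinRoot.of (G2 h F s) b) = pt F x z h0 b := by
  unfold pt2
  rw [AdjoinRoot.liftAlgHom_of]

lemma pt2_rt (x z x' : 𝕜) (h0 : evXY F x z = 0) (h1 : h.eval x' = h.eval x + s) :
    pt2 h F s x z x' h0 h1 (AdjoinRoot.root (G2 h F s)) = x' := by
  unfold pt2
  rw [AdjoinRoot.liftAlgHom_root]

lemma pt2_der (x z x' : 𝕜) (h0 : evXY F x z = 0) (h1 : h.eval x' = h.eval x + s) :
    pt2 h F s x z x' h0 h1 (AdjoinRoot.mk (G2 h F s) (derivative (G2 h F s))) =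
      h.derivative.eval x' := by
  unfold pt2
  rw [AdjoinRoot.liftAlgHom_mk]
  have h2 : derivative (G2 h F s) = (derivative h).map (algebraMap 𝕜 (R1 F)) := by
    unfold G2
    rw [derivative_sub, derivative_C, sub_zero, derivative_map]
  rw [h2]
  exact pt2_aux x z x' h0 h1 _

lemma pt3_aux (x z x' z' : 𝕜) (h0 : evXY F x z = 0) (h1 : h.eval x' = h.eval x + s)
    (f : 𝕜[X][X]) :
    (f.map (eval₂RingHom (algebraMap 𝕜 (R2 h F s)) (AdjoinRoot.root (G2 h F s)))).eval₂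
      (pt2 h F s x z x' h0 h1 : R2 h F s →+* 𝕜) z' = evXY f x' z' := by
  rw [eval₂_map, evXY_eq]
  congr 1
  apply Polynomial.ringHom_ext
  · intro c
    rw [RingHom.comp_apply, RingHom.coe_coe, coe_eval₂RingHom, eval₂_C, AlgHom.commutes,
      coe_evalRingHom, eval_C]
    rfl
  · rw [RingHom.comp_apply, RingHom.coe_coe, coe_eval₂RingHom, eval₂_X, pt2_rt, coe_evalRingHom,
      eval_X]

/-- point of `R3` -/
noncomputable def pt3 (h : 𝕜[X]) (F : 𝕜[X][X]) (s x z x' z' : 𝕜) (h0 : evXY F x z = 0)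
    (h1 : h.eval x' = h.eval x + s) (h2 : evXY F x' z' = 0) : R3 h F s →ₐ[𝕜] 𝕜 :=
  AdjoinRoot.liftAlgHom (G3 h F s) (pt2 h F s x z x' h0 h1) z'
    (by rw [← h2]; exact pt3_aux x z x' z' h0 h1 F)

lemma pt3_of (x z x' z' : 𝕜) (h0 : evXY F x z = 0) (h1 : h.eval x' = h.eval x + s)
    (h2 : evXY F x' z' = 0) (b : R2 h F s) :
    pt3 h F s x z x' z' h0 h1 h2 (AdjoinRoot.of (G3 h F s) b) = pt2 h F s x z x' h0 h1 b := by
  unfold pt3
  rw [AdjoinRoot.liftAlgHom_of]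

lemma pt3_rt (x z x' z' : 𝕜) (h0 : evXY F x z = 0) (h1 : h.eval x' = h.eval x + s)
    (h2 : evXY F x' z' = 0) :
    pt3 h F s x z x' z' h0 h1 h2 (AdjoinRoot.root (G3 h F s)) = z' := by
  unfold pt3
  rw [AdjoinRoot.liftAlgHom_root]

lemma pt3_der (x z x' z' : 𝕜) (h0 : evXY F x z = 0) (h1 : h.eval x' = h.eval x + s)
    (h2 : evXY F x' z' = 0) :
    pt3 h F s x z x' z' h0 h1 h2 (AdjoinRoot.mk (G3 h F s) (derivative (G3 h F s))) =
      evXY (derivative F) x' z' := by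
  unfold pt3
  rw [AdjoinRoot.liftAlgHom_mk]
  have h3 : derivative (G3 h F s) =
      (derivative F).map (eval₂RingHom (algebraMap 𝕜 (R2 h F s)) (AdjoinRoot.root (G2 h F s))) := by
    unfold G3
    rw [derivative_map]
  rw [h3]
  exact pt3_aux x z x' z' h0 h1 _

lemma pt3_D (x z x' z' : 𝕜) (h0 : evXY F x z = 0) (h1 : h.eval x' = h.eval x + s)
    (h2 : evXY F x' z' = 0) :
    pt3 h F s x z x' z' h0 h1 h2 (D3 h F s (AdjoinRoot.of (G3 h F s)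
      (AdjoinRoot.of (G2 h F s) (AdjoinRoot.of F X)))) =
      evXY (derivative F) x' z' * (h.derivative.eval x' * evXY (derivative F) x z) := by
  rw [D3_x, map_mul, pt3_der, pt3_of, map_mul, pt2_der, pt2_of, pt_mk]

lemma pt3_mono (x z x' z' : 𝕜) (h0 : evXY F x z = 0) (h1 : h.eval x' = h.eval x + s)
    (h2 : evXY F x' z' = 0) (a i j l : ℕ) :
    pt3 h F s x z x' z' h0 h1 h2 (mono3 h F s a i j l) = x ^ a * z ^ i * x' ^ j * z' ^ l := by
  unfold mono3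
  simp only [map_mul, map_pow, pt3_rt, pt3_of, pt2_rt, pt2_of, pt_root, pt_of, eval_X]

lemma pt3_inj (x z x' z' y w y' w' : 𝕜) (h0 : evXY F x z = 0) (h1 : h.eval x' = h.eval x + s)
    (h2 : evXY F x' z' = 0) (g0 : evXY F y w = 0) (g1 : h.eval y' = h.eval y + s)
    (g2 : evXY F y' w' = 0)
    (he : pt3 h F s x z x' z' h0 h1 h2 = pt3 h F s y w y' w' g0 g1 g2) :
    x = y ∧ z = w ∧ x' = y' ∧ z' = w' := by
  have e1 := congrArg (fun φ => φ (mono3 h F s 1 0 0 0)) he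
  have e2 := congrArg (fun φ => φ (mono3 h F s 0 1 0 0)) he
  have e3 := congrArg (fun φ => φ (mono3 h F s 0 0 1 0)) he
  have e4 := congrArg (fun φ => φ (mono3 h F s 0 0 0 1)) he
  simp only [pt3_mono, pow_one, pow_zero, mul_one, one_mul] at e1 e2 e3 e4
  exact ⟨e1, e2, e3, e4⟩

end

/-- upper bound for the number of good points of `C_s` -/
theorem good_points {d k : ℕ} (hk1 : 1 ≤ k) {K : ℝ} {P0 : ℕ}
    (H : STi (d * (k * d)) (d + k + d) (((d - 1) + (k - 1)) + (d - 1)) 1 K P0)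
    (p : ℕ) [Fact p.Prime] (hp : P0 ≤ p) (𝕜 : Type) [Field 𝕜] [IsAlgClosed 𝕜]
    [CharP 𝕜 p] (h : 𝕜[X]) (F : 𝕜[X][X]) (s : 𝕜) (hk : h.natDegree = k)
    (hF : GoodFac h F d) (hdom : IsDomain (R3 h F s))
    (B : Finset ((𝕜 × 𝕜) × (𝕜 × 𝕜))) (hB : ∀ P ∈ B, P.1.1 ^ p = P.1.1 ∧ P.1.2 ^ p = P.1.2 ∧
      P.2.1 ^ p = P.2.1 ∧ P.2.2 ^ p = P.2.2 ∧ evXY F P.1.1 P.1.2 = 0 ∧
      h.eval P.2.1 = h.eval P.1.1 + s ∧ evXY F P.2.1 P.2.2 = 0 ∧
      evXY (derivative F) P.2.1 P.2.2 ≠ 0 ∧ h.derivative.eval P.2.1 ≠ 0 ∧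
      evXY (derivative F) P.1.1 P.1.2 ≠ 0) :
    (B.card : ℝ) ≤ p + K * Real.sqrt p := by
  classical
  have hpp : p.Prime := Fact.out
  have hV3 := filt_V3 s hF hk hk1
  have hft1 : Algebra.FiniteType 𝕜 (R1 F) :=
    Algebra.FiniteType.of_surjective ((AdjoinRoot.mkₐ F).restrictScalars 𝕜)
      AdjoinRoot.mk_surjective
  have hft2 : Algebra.FiniteType 𝕜 (R2 h F s) :=
    Algebra.FiniteType.of_surjective ((AdjoinRoot.mkₐ (G2 h F s)).restrictScalars 𝕜)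
      AdjoinRoot.mk_surjective
  have hft3 : Algebra.FiniteType 𝕜 (R3 h F s) :=
    Algebra.FiniteType.of_surjective ((AdjoinRoot.mkₐ (G3 h F s)).restrictScalars 𝕜)
      AdjoinRoot.mk_surjective
  let pts : B → (R3 h F s →ₐ[𝕜] 𝕜) := fun P =>
    pt3 h F s P.1.1.1 P.1.1.2 P.1.2.1 P.1.2.2 (hB P.1 P.2).2.2.2.2.1 (hB P.1 P.2).2.2.2.2.2.1
      (hB P.1 P.2).2.2.2.2.2.2.1
  have hinj : Function.Injective pts := by
    intro P P' hPP
    obtain ⟨e1, e2, e3, e4⟩ := pt3_inj _ _ _ _ _ _ _ _ _ _ _ _ _ _ hPP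
    exact Subtype.ext (Prod.ext (Prod.ext e1 e2) (Prod.ext e3 e4))
  have hmul : ∀ (A B : ℕ), ∀ a ∈ V3 h F s d k A, ∀ b ∈ V3 h F s d k B,
      algebraMap (R3 h F s) (R3 h F s) a * b ∈ V3 h F s d k (A + B) := by
    intro A B a ha b hb
    exact hV3.mul_mem ha hb
  have hup : ∀ T, Module.finrank 𝕜 (V3 h F s d k T) ≤ 1 * (d * (k * d)) * (T + 1) := by
    intro T
    rw [one_mul]
    exact hV3.upper T
  have hmain := H p hpp hp 𝕜 (R3 h F s) (V3 h F s d k) hV3 (D3 h F s) (D3_mem s hF hk hk1)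
    (AdjoinRoot.of (G3 h F s) (AdjoinRoot.of (G2 h F s) (AdjoinRoot.of F X)))
    (fun f hf => sep 𝕜 (R3 h F s) f hf)
    (R3 h F s) (V3 h F s d k) hV3.mono hV3.fin hmul hup
    {bb : R3 h F s × R3 h F s | ∃ a i j l : ℕ,
      bb = (mono3 h F s a i j l, mono3 h F s a i j l)} (V3_span s hF)
    (Finset.univ.image pts) (by
      intro φ hφ
      rw [Finset.mem_image] at hφ
      obtain ⟨P, _, rfl⟩ := hφ
      simp only [pts]
      rw [pt3_D]
      obtain ⟨_, _, _, _, _, _, _, g1, g2, g3⟩ := hB P.1 P.2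
      exact mul_ne_zero g1 (mul_ne_zero g2 g3))
    (by
      intro φ hφ
      rw [Finset.mem_image] at hφ
      obtain ⟨P, _, rfl⟩ := hφ
      obtain ⟨g1, g2, g3, g4, _⟩ := hB P.1 P.2
      refine ⟨(pts P : R3 h F s →+* 𝕜), fun a => rfl, ?_⟩
      rintro b β ⟨a, i, j, l, hab⟩
      rw [Prod.mk.injEq] at hab
      obtain ⟨rfl, rfl⟩ := hab
      simp only [pts]
      rw [RingHom.coe_coe, pt3_mono, mul_pow, mul_pow, mul_pow]
      have e : ∀ (y : 𝕜) (m : ℕ), y ^ p = y → (y ^ m) ^ p = y ^ m := by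
        intro y m hy
        rw [← pow_mul, mul_comm, pow_mul, hy]
      rw [e _ _ g1, e _ _ g2, e _ _ g3, e _ _ g4])
  rw [Finset.card_image_of_injective _ hinj, Finset.card_univ, Fintype.card_coe, Nat.cast_one,
    one_mul] at hmain
  exact hmain

end Vale.Agent.P042.WA.FD
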